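import Mathlib

/-!
# P205: the notions used in the statement on isometric immersions of closed surfaces

`M` is a manifold modelled on the normed space `E` (with its identity model with corners), `V` is
a Euclidean space. Recall that Mathlib's tangent space of `M` at any point is a copy of `E`.
-/

open scoped Manifold ContDiff

namespace P205W

variable (E : Type) [NormedAddCommGroup E] [NormedSpace ℝ E]
variable (M : Type) [TopologicalSpace M] [ChartedSpace E M]

/-- smooth Riemannian metrics on the manifold `M` modelled on `E` (Mathlib's smooth Riemannian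
metrics on the tangent bundle of `M`) -/
abbrev SmoothMetric [IsManifold 𝓘(ℝ, E) ∞ M] : Type :=
  Bundle.ContMDiffRiemannianMetric 𝓘(ℝ, E) ∞ E (fun p : M => TangentSpace 𝓘(ℝ, E) p)

variable {E M}
variable {V : Type} [NormedAddCommGroup V] [InnerProductSpace ℝ V]

/-- the bilinear form `g_p` of a Riemannian metric on the tangent space at `p` (a copy of `E`) -/
noncomputable def formAt [IsManifold 𝓘(ℝ, E) ∞ M] (g : SmoothMetric E M) (p : M) :
    E →L[ℝ] E →L[ℝ] ℝ :=
  g.inner p

variable (E)

/-- the differential `dF_p` of `F : M → V` on the tangent space at `p` (a copy of `E`) -/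
noncomputable def diffAt (F : M → V) (p : M) : E →L[ℝ] V :=
  mfderiv 𝓘(ℝ, E) 𝓘(ℝ, V) F p

/-- `F : M → V` is a smooth immersion: a smooth map with injective differential at every point -/
def IsSmoothImmersion (F : M → V) : Prop :=
  ContMDiff 𝓘(ℝ, E) 𝓘(ℝ, V) ∞ F ∧ ∀ p : M, Function.Injective (diffAt E F p)

variable {E}

/-- `F : M → V` is smooth and isometric for the metric `g` on `M`:
`⟪dF_p (v), dF_p (w)⟫ = g_p (v, w)` for all `p` and all tangent vectors `v`, `w` at `p` -/
def IsSmoothIsometric [IsManifold 𝓘(ℝ, E) ∞ M] (g : SmoothMetric E M) (F : M → V) : Prop :=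
  ContMDiff 𝓘(ℝ, E) 𝓘(ℝ, V) ∞ F ∧
    ∀ (p : M) (v w : E), inner ℝ (diffAt E F p v) (diffAt E F p w) = formAt g p v w

end P205W
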